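import Vale.Agent.P281.H240.Coord
import Vale.Agent.P281.H64.Base2

/-!
# P281, theorem T-D (helper240): block C2 from C1
-/

open Set Filter Metric MeasureTheory
open scoped Topology ContDiff ComplexConjugate

noncomputable section

namespace Vale.Agent.P281.H240

open Vale.Agent.P281.H64 Vale.Agent.P281.H125

theorem contDiffOn_dbar {f : ℂ → ℂ} {A : Set ℂ} (hA : IsOpen A) (hf : ContDiffOn ℝ ∞ f A) :
    ContDiffOn ℝ ∞ (dbar f) A := by
  have h : ContDiffOn ℝ ∞ (fun z => fderiv ℝ f z) A := by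
    have := hf.fderiv_of_isOpen hA (m := ∞) (by simp)
    exact this
  unfold dbar
  exact ((h.clm_apply contDiffOn_const).add
    (contDiffOn_const.mul (h.clm_apply contDiffOn_const))).div_const _

/-- the bump function: `1` on `D(0, 3/2)`, `0` off `D(0, 2)` -/
def chi : ContDiffBump (0 : ℂ) := ⟨3 / 2, 2, by norm_num, by norm_num⟩

theorem chi_zero {w : ℂ} (h : 2 < ‖w‖) : chi w = 0 := by
  refine chi.zero_of_le_dist ?_
  rw [dist_zero_right]
  exact h.le

theorem chi_one {w : ℂ} (h : ‖w‖ ≤ 3 / 2) : chi w = 1 := by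
  refine chi.one_of_mem_closedBall ?_
  rw [mem_closedBall_zero_iff]
  exact h

section
variable {E Γ : Type} [TopologicalSpace E] [Group Γ] [MulAction Γ E] (S : Sheets E Γ)

/-- the denominator -/
def den (e : E) : ℝ := ∑ i, ext S i (fun w _ => chi w) e

/-- the numerator -/
def num (a : Γ → ℝ) (e : E) : ℝ := ∑ i, ext S i (fun w γ => chi w * a γ) e

variable {S}

theorem ext_nonneg (i : Fin S.N) (e : E) : 0 ≤ ext S i (fun w _ => chi w) e := by
  rw [ext]
  split_ifs
  · exact chi.nonneg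
  · exact le_rfl

theorem den_pos (e : E) : 0 < den S e := by
  obtain ⟨γ, i, z, hz, he⟩ := S.cover e
  have hz3 := Sheets.mem3 hz
  obtain ⟨h1, h2, h3⟩ := zeta_unique hz3 he.symm
  refine Finset.sum_pos' (fun i _ => ext_nonneg i e) ⟨i, Finset.mem_univ i, ?_⟩
  rw [ext, if_pos h1, h2, chi_one (by linarith)]
  exact one_pos

theorem den_smul (γ : Γ) (e : E) : den S (γ • e) = den S e := by
  refine Finset.sum_congr rfl fun i _ => ?_
  by_cases h : In S i e
  · obtain ⟨h1, h2, h3⟩ := zeta_smul h γ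
    rw [ext, if_pos h1, ext, if_pos h, h2]
  · rw [ext, if_neg (fun h' => h ((In_smul γ).1 h')), ext, if_neg h]

theorem num_smul {a : Γ → ℝ} (ha : ∀ x y, a (x * y) = a x + a y) (γ : Γ) (e : E) :
    num S a (γ • e) = num S a e + a γ * den S e := by
  rw [num, num, den, Finset.mul_sum, ← Finset.sum_add_distrib]
  refine Finset.sum_congr rfl fun i _ => ?_
  by_cases h : In S i e
  · obtain ⟨h1, h2, h3⟩ := zeta_smul h γ
    rw [ext, if_pos h1, ext, if_pos h, ext, if_pos h, h2, h3, ha]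
    ring
  · rw [ext, if_neg (fun h' => h ((In_smul γ).1 h')), ext, if_neg h, ext, if_neg h]
    ring

theorem den_smooth (j : Fin S.N) (γ : Γ) {z : ℂ} (hz : z ∈ ball (0 : ℂ) 3) :
    ContDiffAt ℝ ∞ (fun u => den S (γ • S.σ j u)) z := by
  unfold den
  refine ContDiffAt.sum fun i _ => ?_
  exact ext_smooth (fun w _ hw => chi_zero hw) (fun _ => chi.contDiff) j γ hz

theorem num_smooth (a : Γ → ℝ) (j : Fin S.N) (γ : Γ) {z : ℂ} (hz : z ∈ ball (0 : ℂ) 3) :
    ContDiffAt ℝ ∞ (fun u => num S a (γ • S.σ j u)) z := by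
  unfold num
  refine ContDiffAt.sum fun i _ => ?_
  exact ext_smooth (fun w γ hw => by rw [chi_zero hw, zero_mul])
    (fun _ => chi.contDiff.mul contDiff_const) j γ hz

variable (S) in
/-- a smooth additive function with periods `a` -/
def u₀ (a : Γ → ℝ) (e : E) : ℂ := ((num S a e / den S e : ℝ) : ℂ)

theorem u₀_smul {a : Γ → ℝ} (ha : ∀ x y, a (x * y) = a x + a y) (γ : Γ) (e : E) :
    u₀ S a (γ • e) = u₀ S a e + a γ := by
  rw [u₀, u₀, num_smul ha, den_smul, ← Complex.ofReal_add]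
  congr 1
  have := (den_pos (S := S) e).ne'
  field_simp

theorem u₀_smooth (a : Γ → ℝ) (j : Fin S.N) (γ : Γ) {z : ℂ} (hz : z ∈ ball (0 : ℂ) 3) :
    ContDiffAt ℝ ∞ (fun u => u₀ S a (γ • S.σ j u)) z := by
  have h1 : ContDiffAt ℝ ∞ (fun u => num S a (γ • S.σ j u) / den S (γ • S.σ j u)) z :=
    (num_smooth a j γ hz).div (den_smooth j γ hz) (den_pos _).ne'
  exact Complex.ofRealCLM.contDiff.contDiffAt.comp z h1

theorem u₀_smooth' (a : Γ → ℝ) (j : Fin S.N) {z : ℂ} (hz : z ∈ ball (0 : ℂ) 3) :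
    ContDiffAt ℝ ∞ (fun u => u₀ S a (S.σ j u)) z := by
  have := u₀_smooth (S := S) a j 1 hz
  simpa only [one_smul] using this

theorem u₀_diff (a : Γ → ℝ) (j : Fin S.N) {z : ℂ} (hz : z ∈ ball (0 : ℂ) 3) :
    DifferentiableAt ℝ (fun u => u₀ S a (S.σ j u)) z :=
  (u₀_smooth' a j hz).differentiableAt (by simp)

/-- `∂̄u₀` is a smooth form -/
theorem u₀_form {a : Γ → ℝ} (ha : ∀ x y, a (x * y) = a x + a y) :
    Form01 S fun i z => dbar (fun u => u₀ S a (S.σ i u)) z where
  smooth i := contDiffOn_dbar isOpen_ball fun z hz => (u₀_smooth' a i hz).contDiffWithinAt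
  change i j z hz w hw γ θ h1 h2 h3 := by
    have h4 : (fun u => u₀ S a (S.σ i u)) =ᶠ[𝓝 z] fun u => u₀ S a (S.σ j (θ u)) + a γ := by
      filter_upwards [h3] with u hu
      rw [hu, u₀_smul ha]
    rw [dbar_congr h4, dbar_add_const]
    have h5 := dbar_comp (g := fun w => u₀ S a (S.σ j w)) h1.differentiableAt
      (by rw [h2]; exact u₀_diff a j hw)
    rw [h5, h2]

end

section
variable {E Γ : Type} [TopologicalSpace E] [Group Γ] [MulAction Γ E]

/-- **Maximum principle** -/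
theorem unique_of_re [ContinuousConstSMul Γ E] [PreconnectedSpace E] {S : Sheets E Γ}
    {h : E → ℂ} {c : Γ → ℂ} (H : Add S h c) (hc : ∀ γ, (c γ).re = 0) (e e' : E) : h e = h e' := by
  -- the maximum of `Re h`
  have hR : ∀ (γ : Γ) e, (h (γ • e)).re = (h e).re := fun γ e => by
    rw [H.add, Complex.add_re, hc, add_zero]
  obtain ⟨i₀, z₀, hz₀, hmax⟩ : ∃ (i₀ : Fin S.N) (z₀ : ℂ), ‖z₀‖ ≤ 1 ∧
      ∀ e, (h e).re ≤ (h (S.σ i₀ z₀)).re := by
    have hsub : closedBall (0 : ℂ) 1 ⊆ ball 0 3 := closedBall_subset_ball (by norm_num)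
    have h1 : ∀ i : Fin S.N, ∃ z : ℂ, ‖z‖ ≤ 1 ∧ ∀ w : ℂ, ‖w‖ ≤ 1 →
        (h (S.σ i w)).re ≤ (h (S.σ i z)).re := by
      intro i
      have hcont : ContinuousOn (fun z => (h (S.σ i z)).re) (closedBall 0 1) :=
        Complex.continuous_re.comp_continuousOn ((H.hol i).continuousOn.mono hsub)
      obtain ⟨z, hz, hm⟩ := (isCompact_closedBall (0 : ℂ) 1).exists_isMaxOn
        ⟨0, mem_closedBall_self (by norm_num)⟩ hcont
      exact ⟨z, mem_closedBall_zero_iff.1 hz, fun w hw => hm (mem_closedBall_zero_iff.2 hw)⟩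
    choose zz hz1 hz2 using h1
    obtain ⟨γ, i, z, hz, -⟩ := S.cover e
    obtain ⟨i₀, -, hi₀⟩ := Finset.exists_max_image Finset.univ
      (fun i => (h (S.σ i (zz i))).re) ⟨i, Finset.mem_univ i⟩
    refine ⟨i₀, zz i₀, hz1 i₀, fun e => ?_⟩
    obtain ⟨γ, j, w, hw, rfl⟩ := S.cover e
    rw [hR]
    exact (hz2 j w hw.le).trans (hi₀ j (Finset.mem_univ j))
  have hz3 : z₀ ∈ ball (0 : ℂ) 3 := Sheets.mem3' (by norm_num) hz₀
  -- `h` is constant near the maximum
  have h0 : ∀ᶠ e in 𝓝 (S.σ i₀ z₀), h e = h (S.σ i₀ z₀) := by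
    rw [← S.map_nhds i₀ z₀ hz3, eventually_map]
    have han : AnalyticAt ℂ (fun z => h (S.σ i₀ z)) z₀ :=
      (H.hol i₀).analyticAt (isOpen_ball.mem_nhds hz3)
    rcases han.eventually_constant_or_nhds_le_map_nhds with h1 | h1
    · exact h1
    · exfalso
      have h2 : {w : ℂ | w.re ≤ (h (S.σ i₀ z₀)).re} ∈ 𝓝 (h (S.σ i₀ z₀)) := by
        refine h1 ?_
        rw [mem_map]
        exact Filter.Eventually.of_forall fun z => hmax _
      have h3 : Tendsto (fun t : ℝ => h (S.σ i₀ z₀) + t) (𝓝[>] 0) (𝓝 (h (S.σ i₀ z₀))) := by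
        have : Tendsto (fun t : ℝ => h (S.σ i₀ z₀) + t) (𝓝 0) (𝓝 (h (S.σ i₀ z₀) + (0 : ℝ))) :=
          (by fun_prop : Continuous fun t : ℝ => h (S.σ i₀ z₀) + t).tendsto 0
        rw [Complex.ofReal_zero, add_zero] at this
        exact this.mono_left nhdsWithin_le_nhds
      obtain ⟨t, ht, ht0⟩ := ((h3.eventually h2).and self_mem_nhdsWithin).exists
      simp only [Complex.add_re, Complex.ofReal_re] at ht
      have : (0 : ℝ) < t := ht0
      linarith
  rw [Add.const_of_eventually H h0 e, Add.const_of_eventually H h0 e']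

end

/-- **C2** -/
theorem c2 (hC1 : C1Stmt) : C2Stmt := by
  intro E Γ _ _ _ _ _ _ S
  refine ⟨fun a ha => ?_, fun h c H hc e e' => unique_of_re H hc e e'⟩
  obtain ⟨v, h, c, hv, hvi, H, hf⟩ := hC1 E Γ S _ (u₀_form (S := S) ha)
  refine ⟨fun e => u₀ S a e - v e - conj (h e) + h e, fun γ => a γ - conj (c γ) + c γ,
    ⟨fun i => ?_, fun γ e => ?_⟩, fun γ => ?_⟩
  · intro z hz
    refine DifferentiableAt.differentiableWithinAt ?_
    have hvd : DifferentiableAt ℝ (fun u => v (S.σ i u)) z := by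
      have h1 := ((hv i 1).contDiffAt (isOpen_ball.mem_nhds hz)).differentiableAt (by simp)
      simpa only [one_smul] using h1
    have hhd : DifferentiableAt ℂ (fun u => h (S.σ i u)) z :=
      (H.hol i).differentiableAt (isOpen_ball.mem_nhds hz)
    have hhr : DifferentiableAt ℝ (fun u => conj (h (S.σ i u))) z :=
      (Complex.conjCLE : ℂ →L[ℝ] ℂ).differentiableAt.comp z (hhd.restrictScalars ℝ)
    have hw : DifferentiableAt ℂ (fun u => u₀ S a (S.σ i u) - v (S.σ i u) -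
        conj (h (S.σ i u))) z := by
      have h2 : DifferentiableAt ℝ (fun u => u₀ S a (S.σ i u) - v (S.σ i u)) z :=
        (u₀_diff a i hz).sub hvd
      refine differentiableAt_of_dbar (h2.sub hhr) ?_
      rw [dbar_sub h2 hhr, dbar_sub (u₀_diff a i hz) hvd,
        dbar_conj_hol hhd, hf i z hz]
      ring
    exact hw.add hhd
  · rw [u₀_smul ha, hvi, H.add, map_add]
    ring
  · simp only [Complex.add_re, Complex.sub_re, Complex.ofReal_re, Complex.conj_re]
    ring

end Vale.Agent.P281.H240
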