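import Vale.Agent.P281.H240.C2

/-!
# P281, theorem T-D (helper240): block C3 from C1, E1, E3
-/

open Set Filter Metric MeasureTheory
open scoped Topology ContDiff ComplexConjugate

noncomputable section

namespace Vale.Agent.P281.H240

open Vale.Agent.P281.H64 Vale.Agent.P281.H125

/-- the bump function, complex valued -/
def chiC (w : ℂ) : ℂ := (chi w : ℝ)

theorem chiC_smooth : ContDiff ℝ ∞ chiC := Complex.ofRealCLM.contDiff.comp chi.contDiff

theorem chiC_zero {w : ℂ} (h : 2 < ‖w‖) : chiC w = 0 := by rw [chiC, chi_zero h]; simp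

theorem chiC_one {w : ℂ} (h : ‖w‖ ≤ 3 / 2) : chiC w = 1 := by rw [chiC, chi_one h]; simp

theorem chiC_diff (z : ℂ) : DifferentiableAt ℝ chiC z :=
  chiC_smooth.contDiffAt.differentiableAt (by simp)

theorem dbar_chi_zero {w : ℂ} (h : 2 < ‖w‖) : dbar chiC w = 0 := by
  have h1 : chiC =ᶠ[𝓝 w] fun _ => 0 := by
    have : {w : ℂ | 2 < ‖w‖} ∈ 𝓝 w := (isOpen_lt continuous_const continuous_norm).mem_nhds h
    filter_upwards [this] with u hu using chiC_zero hu
  rw [dbar_congr h1, dbar_hol (differentiableAt_const _)]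

theorem dbar_chi_one {w : ℂ} (h : ‖w‖ < 3 / 2) : dbar chiC w = 0 := by
  have h1 : chiC =ᶠ[𝓝 w] fun _ => 1 := by
    have : {w : ℂ | ‖w‖ < 3 / 2} ∈ 𝓝 w := (isOpen_lt continuous_norm continuous_const).mem_nhds h
    filter_upwards [this] with u hu using chiC_one (le_of_lt hu)
  rw [dbar_congr h1, dbar_hol (differentiableAt_const _)]

theorem dbar_chi_smooth : ContDiff ℝ ∞ (dbar chiC) := by
  rw [← contDiffOn_univ]
  exact contDiffOn_dbar isOpen_univ chiC_smooth.contDiffOn

theorem integrable_prod {a b : ℂ → ℂ} (ha : Continuous a) (h0 : ∀ z, 2 < ‖z‖ → a z = 0)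
    (hb : ContinuousOn b (ball 0 3)) : Integrable fun z => a z * b z := by
  have h1 : IntegrableOn (fun z => a z * b z) (closedBall 0 2) :=
    (ha.continuousOn.mul (hb.mono (closedBall_subset_ball (by norm_num)))).integrableOn_compact
      (isCompact_closedBall _ _)
  refine (integrableOn_iff_integrable_of_support_subset ?_).1 h1
  intro z hz
  rw [mem_closedBall_zero_iff]
  by_contra h2
  push Not at h2
  exact hz (by simp only [h0 z h2, zero_mul])

/-- `∫ ∂̄χ · g = 0` for `g` holomorphic -/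
theorem int_dbar_chi {g : ℂ → ℂ} (hg : DifferentiableOn ℂ g (ball 0 3)) :
    ∫ z, dbar chiC z * g z = 0 := by
  have hts : tsupport chiC ⊆ ball 0 3 := by
    have h1 : tsupport chiC ⊆ closedBall 0 2 := by
      refine closure_minimal ?_ isClosed_closedBall
      intro z hz
      rw [mem_closedBall_zero_iff]
      by_contra h2
      push Not at h2
      exact hz (chiC_zero h2)
    exact h1.trans (closedBall_subset_ball (by norm_num))
  have hgc : ContinuousOn g (ball 0 3) := hg.continuousOn
  have hga : ∀ z ∈ ball (0 : ℂ) 3, AnalyticAt ℂ g z := fun z hz =>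
    hg.analyticAt (isOpen_ball.mem_nhds hz)
  have hgr : ContDiffOn ℝ ∞ g (ball 0 3) := fun z hz =>
    (((hga z hz).contDiffAt (n := ∞)).restrict_scalars ℝ).contDiffWithinAt
  have hgf : ContinuousOn (fderiv ℝ g) (ball 0 3) :=
    hgr.continuousOn_fderiv_of_isOpen isOpen_ball (by simp)
  have hcf : Continuous (fderiv ℝ chiC) := chiC_smooth.continuous_fderiv (by simp)
  have hf0 : ∀ v z, 2 < ‖z‖ → fderiv ℝ chiC z v = 0 := by
    intro v z h
    have h1 : chiC =ᶠ[𝓝 z] fun _ => 0 := by
      have : {w : ℂ | 2 < ‖w‖} ∈ 𝓝 z := (isOpen_lt continuous_const continuous_norm).mem_nhds h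
      filter_upwards [this] with u hu using chiC_zero hu
    rw [h1.fderiv_eq, fderiv_const_apply]
    rfl
  have key : ∀ v : ℂ, ∫ z, chiC z * fderiv ℝ g z v = - ∫ z, fderiv ℝ chiC z v * g z := by
    intro v
    refine integral_mul_fderiv_eq_neg_fderiv_mul_of_integrable ?_ ?_ ?_ ?_ ?_
    · exact integrable_prod (hcf.clm_apply continuous_const) (hf0 v) hgc
    · exact integrable_prod chiC_smooth.continuous (fun z hz => chiC_zero hz)
        (hgf.clm_apply continuousOn_const)
    · exact integrable_prod chiC_smooth.continuous (fun z hz => chiC_zero hz) hgc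
    · exact fun z _ => chiC_diff z
    · exact fun z hz => (hga z (hts hz)).differentiableAt.restrictScalars ℝ
  have i1 := integrable_prod (hcf.clm_apply (continuous_const (y := (1 : ℂ)))) (hf0 1) hgc
  have i2 := integrable_prod (hcf.clm_apply (continuous_const (y := Complex.I)))
    (hf0 Complex.I) hgc
  have j1 := integrable_prod chiC_smooth.continuous (fun z hz => chiC_zero hz)
        (hgf.clm_apply (continuousOn_const (c := (1 : ℂ))))
  have j2 := integrable_prod chiC_smooth.continuous (fun z hz => chiC_zero hz)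
        (hgf.clm_apply (continuousOn_const (c := Complex.I)))
  have e1 : ∫ z, dbar chiC z * g z = ((∫ z, fderiv ℝ chiC z 1 * g z) +
      Complex.I * ∫ z, fderiv ℝ chiC z Complex.I * g z) / 2 := by
    rw [← integral_const_mul, ← integral_add i1 (i2.const_mul _), ← integral_div]
    refine integral_congr_ae (Eventually.of_forall fun z => ?_)
    simp only [dbar]
    ring
  have e2 : ∫ z, chiC z * dbar g z = ((∫ z, chiC z * fderiv ℝ g z 1) +
      Complex.I * ∫ z, chiC z * fderiv ℝ g z Complex.I) / 2 := by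
    rw [← integral_const_mul, ← integral_add j1 (j2.const_mul _), ← integral_div]
    refine integral_congr_ae (Eventually.of_forall fun z => ?_)
    simp only [dbar]
    ring
  have e3 : ∫ z, chiC z * dbar g z = 0 := by
    refine integral_eq_zero_of_ae (Eventually.of_forall fun z => ?_)
    by_cases hz : z ∈ ball (0 : ℂ) 3
    · simp only [dbar_hol (hga z hz).differentiableAt, mul_zero, Pi.zero_apply]
    · have : 2 < ‖z‖ := by
        rw [mem_ball_zero_iff] at hz
        push Not at hz
        linarith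
      simp only [chiC_zero this, zero_mul, Pi.zero_apply]
  rw [e1]
  rw [e2, key, key] at e3
  linear_combination -e3

section
variable {E Γ : Type} [TopologicalSpace E] [Group Γ] [MulAction Γ E] {S : Sheets E Γ}
  {i j : Fin S.N} {z₀ : ℂ}

/-- `∂̄χ / (z - z₀)` -/
def beta (z₀ w : ℂ) : ℂ := dbar chiC w / (w - z₀)

theorem beta_smooth (hz₀ : ‖z₀‖ < 1) : ContDiff ℝ ∞ (beta z₀) := by
  rw [contDiff_iff_contDiffAt]
  intro w
  by_cases hw : w = z₀
  · subst hw
    have h1 : beta w =ᶠ[𝓝 w] fun _ => 0 := by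
      have : {w : ℂ | ‖w‖ < 3 / 2} ∈ 𝓝 w :=
        (isOpen_lt continuous_norm continuous_const).mem_nhds (by
          show ‖w‖ < 3 / 2
          linarith)
      filter_upwards [this] with u hu
      rw [beta, dbar_chi_one hu, zero_div]
    exact contDiffAt_const.congr_of_eventuallyEq h1
  · have h1 : ContDiffAt ℝ ∞ (fun w : ℂ => (w - z₀)⁻¹) w :=
      (contDiffAt_id.sub contDiffAt_const).inv (sub_ne_zero.2 hw)
    have h2 : beta z₀ = fun w => dbar chiC w * (w - z₀)⁻¹ := by
      funext w
      rw [beta, div_eq_mul_inv]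
    rw [h2]
    exact dbar_chi_smooth.contDiffAt.mul h1

theorem beta_zero {w : ℂ} (h : 2 < ‖w‖) : beta z₀ w = 0 := by rw [beta, dbar_chi_zero h, zero_div]

theorem beta_zero' {w : ℂ} (h : ‖w‖ < 3 / 2) : beta z₀ w = 0 := by
  rw [beta, dbar_chi_one h, zero_div]

variable (S i z₀) in
open Classical in
/-- the form -/
def frm (j : Fin S.N) (z : ℂ) : ℂ :=
  if z ∈ U S j i then beta z₀ (τ S j i z) * conj (deriv (τ S j i) z) else 0

/-- either `z` is in the sheet `i`, or all the points near `z` are not in the sheet `i` or far away -/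
theorem far {z : ℂ} (hz : z ∈ ball (0 : ℂ) 3) (h : z ∉ U S j i) :
    ∀ᶠ u in 𝓝 z, u ∈ U S j i → 2 < ‖τ S j i u‖ := by
  have h1 := S.closed i 2 (by norm_num)
  have h2 : S.σ j z ∉ {e : E | ∃ (γ : Γ) (w : ℂ), ‖w‖ ≤ 2 ∧ γ • S.σ i w = e} := by
    rintro ⟨γ', w, hw, h'⟩
    exact h (mem_U hz (mem_ball_zero_iff.2 (by linarith)) h'.symm)
  have h3 := (continuousAt_sigma j hz).eventually (h1.isOpen_compl.mem_nhds h2)
  filter_upwards [h3] with u hu hU
  by_contra h6
  push Not at h6
  exact hu ⟨κ S j i u, τ S j i u, h6, (tau_spec hU).2.symm⟩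

theorem frm_far {z : ℂ} (hz : z ∈ ball (0 : ℂ) 3) (h : z ∉ U S j i) :
    ∀ᶠ u in 𝓝 z, frm S i z₀ j u = 0 := by
  filter_upwards [far hz h] with u hu
  by_cases hU : u ∈ U S j i
  · rw [frm, if_pos hU, beta_zero (hu hU), zero_mul]
  · rw [frm, if_neg hU]

theorem frm_of_tau {k : Fin S.N} {z : ℂ} (h : z ∈ U S j k) :
    frm S i z₀ j z = frm S i z₀ k (τ S j k z) * conj (deriv (τ S j k) z) := by
  by_cases h' : τ S j k z ∈ U S k i
  · obtain ⟨h1, h2, h3⟩ := tau_trans h h'
    rw [frm, if_pos h1, frm, if_pos h', h2, deriv_tau_trans h h', map_mul]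
    ring
  · have h1 : z ∉ U S j i := fun h1 => h' (tau_mem_U' h h1)
    rw [frm, if_neg h1, frm, if_neg h', zero_mul]

theorem frm_form (hz₀ : ‖z₀‖ < 1) : Form01 S (frm S i z₀) where
  smooth j z hz := by
    refine ContDiffAt.contDiffWithinAt ?_
    by_cases h : z ∈ U S j i
    · have h1 : frm S i z₀ j =ᶠ[𝓝 z] fun u =>
          beta z₀ (τ S j i u) * conj (deriv (τ S j i) u) := by
        filter_upwards [isOpen_U.mem_nhds h] with u hu
        rw [frm, if_pos hu]
      refine ContDiffAt.congr_of_eventuallyEq ?_ h1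
      have h2 : ContDiffAt ℝ ∞ (fun u => beta z₀ (τ S j i u)) z :=
        (beta_smooth hz₀).contDiffAt.comp z (contDiffAt_tau h)
      have h3 : ContDiffAt ℝ ∞ (deriv (τ S j i)) z :=
        (((analyticAt_tau h).deriv).contDiffAt (n := ∞)).restrict_scalars ℝ
      have h4 : ContDiffAt ℝ ∞ (fun u => conj (deriv (τ S j i) u)) z :=
        (Complex.conjCLE : ℂ →L[ℝ] ℂ).contDiff.contDiffAt.comp z h3
      exact h2.mul h4
    · exact contDiffAt_const.congr_of_eventuallyEq (frm_far hz h)
  change j k z hz w hw γ θ h1 h2 h3 := by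
    have h4 : S.σ j z = γ • S.σ k w := by rw [h3.self_of_nhds, h2]
    have h5 : z ∈ U S j k := mem_U hz hw h4
    have h6 := tau_unique hz hw h4
    have h7 : τ S j k =ᶠ[𝓝 z] θ := by
      have h8 : ∀ᶠ u in 𝓝 z, θ u ∈ ball (0 : ℂ) 3 :=
        h1.continuousAt.eventually (by rw [h2]; exact isOpen_ball.mem_nhds hw)
      filter_upwards [h3, h8, isOpen_ball.mem_nhds hz] with u ha hb hc
      exact (tau_unique hc hb ha).1
    rw [frm_of_tau h5, h6.1, h7.deriv_eq]

/-- the form in its own sheet -/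
theorem frm_self {z : ℂ} (hz : z ∈ ball (0 : ℂ) 3) : frm S i z₀ i z = beta z₀ z := by
  have h1 : τ S i i =ᶠ[𝓝 z] id := by
    filter_upwards [isOpen_ball.mem_nhds hz] with u hu
    exact (tau_self hu).1
  rw [frm, if_pos (mem_U_self hz), h1.deriv_eq, (tau_self hz).1, deriv_id]
  simp

/-- the derivative of an additive function in two sheets -/
theorem deriv_add {h : E → ℂ} {c : Γ → ℂ} (H : Add S h c) {k : Fin S.N} {z : ℂ}
    (hU : z ∈ U S j k) : deriv (fun u => h (S.σ j u)) z =
      deriv (fun u => h (S.σ k u)) (τ S j k z) * deriv (τ S j k) z := by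
  have h1 : (fun u => h (S.σ j u)) =ᶠ[𝓝 z] fun u => h (S.σ k (τ S j k u)) + c (κ S j k z) := by
    filter_upwards [isOpen_U.mem_nhds hU, kappa_local hU] with u hu hk
    rw [sigma_eq hu, H.add, hk]
  have h2 : HasDerivAt (fun u => h (S.σ k u)) (deriv (fun u => h (S.σ k u)) (τ S j k z))
      (τ S j k z) :=
    ((H.hol k).differentiableAt (isOpen_ball.mem_nhds (tau_mem hU))).hasDerivAt
  have h3 := h2.comp z (analyticAt_tau hU).differentiableAt.hasDerivAt
  rw [h1.deriv_eq, deriv_add_const]
  exact h3.deriv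

/-- `∫ a ∧ dh = 0` -/
theorem int_frm (hz₀ : ‖z₀‖ < 1) {h : E → ℂ} {c : Γ → ℂ} (H : Add S h c)
    (h0 : deriv (fun z => h (S.σ i z)) z₀ = 0) :
    S.int (fun j z => frm S i z₀ j z * deriv (fun z => h (S.σ j z)) z) = 0 := by
  have hsub : closedBall (0 : ℂ) 2 ⊆ ball 0 3 := closedBall_subset_ball (by norm_num)
  have hz3 : ball (0 : ℂ) 3 ∈ 𝓝 z₀ := isOpen_ball.mem_nhds (Sheets.mem3 hz₀)
  -- the holomorphic function `h' / (z - z₀)`
  set g : ℂ → ℂ := dslope (deriv fun z => h (S.σ i z)) z₀ with hg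
  have hgd : DifferentiableOn ℂ g (ball 0 3) :=
    (Complex.differentiableOn_dslope hz3).2 ((H.hol i).deriv isOpen_ball)
  have hgz : ∀ z, z ≠ z₀ → g z = deriv (fun z => h (S.σ i z)) z / (z - z₀) := by
    intro z hz
    rw [hg, dslope_of_ne _ hz, slope_def_field, h0, sub_zero]
  have hprod : ∀ z, beta z₀ z * deriv (fun z => h (S.σ i z)) z = dbar chiC z * g z := by
    intro z
    by_cases hz : z = z₀
    · subst hz
      rw [h0, dbar_chi_one (by linarith)]
      ring
    · rw [hgz z hz, beta]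
      ring
  have h1 : S.int (fun j z => frm S i z₀ j z * deriv (fun z => h (S.σ j z)) z) =
      ∫ z in closedBall (0 : ℂ) 2, frm S i z₀ i z * deriv (fun z => h (S.σ i z)) z := by
    refine int_sheet (j := i) (d := fun j z => frm S i z₀ j z * deriv (fun z => h (S.σ j z)) z)
      ?_ isClosed_closedBall.measurableSet hsub ?_ ?_
    · intro k z hz
      rw [frm_of_tau hz, deriv_add H hz, Complex.real_smul]
      have : ((‖deriv (τ S i k) z‖ ^ 2 : ℝ) : ℂ) =
          conj (deriv (τ S i k) z) * deriv (τ S i k) z := by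
        rw [← Complex.normSq_eq_norm_sq, Complex.normSq_eq_conj_mul_self]
      rw [this]
      ring
    · intro k w hw hn
      have : frm S i z₀ k w = 0 := by
        rw [frm]
        split_ifs with hU
        · have h2 : 2 < ‖τ S k i w‖ := by
            by_contra h3
            push Not at h3
            exact hn ⟨hU, mem_closedBall_zero_iff.2 h3⟩
          rw [beta_zero h2, zero_mul]
        · rfl
      simp only [this, zero_mul]
    · have h2 : ContinuousOn (fun z => dbar chiC z * g z) (closedBall 0 2) :=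
        dbar_chi_smooth.continuous.continuousOn.mul (hgd.continuousOn.mono hsub)
      refine (h2.integrableOn_compact (isCompact_closedBall _ _)).congr_fun ?_
        isClosed_closedBall.measurableSet
      intro z hz
      show dbar chiC z * g z = frm S i z₀ i z * deriv (fun z => h (S.σ i z)) z
      rw [frm_self (hsub hz), hprod]
  rw [h1]
  have h2 : ∫ z in closedBall (0 : ℂ) 2, frm S i z₀ i z * deriv (fun z => h (S.σ i z)) z =
      ∫ z in closedBall (0 : ℂ) 2, dbar chiC z * g z := by
    refine setIntegral_congr_fun isClosed_closedBall.measurableSet fun z hz => ?_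
    show frm S i z₀ i z * deriv (fun z => h (S.σ i z)) z = dbar chiC z * g z
    rw [frm_self (hsub hz), hprod]
  rw [h2, setIntegral_eq_integral_of_forall_compl_eq_zero, int_dbar_chi hgd]
  intro z hz
  rw [mem_closedBall_zero_iff] at hz
  push Not at hz
  rw [dbar_chi_zero hz, zero_mul]

end

section
variable {E Γ : Type} [TopologicalSpace E] [Group Γ] [MulAction Γ E] {S : Sheets E Γ}
  {i j : Fin S.N} {z₀ : ℂ}

/-- the integrals converge -/
theorem integrableOn_P {F : ℂ → ℂ} (hF : ContinuousOn F (ball 0 3)) (i : Fin S.N) :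
    IntegrableOn F (S.P i) := by
  have h1 : IntegrableOn F (closedBall 0 1) :=
    (hF.mono (closedBall_subset_ball (by norm_num))).integrableOn_compact
      (isCompact_closedBall _ _)
  exact h1.mono_set (P_sub_one.trans ball_subset_closedBall)

theorem int_add {d d' : Fin S.N → ℂ → ℂ} (h : ∀ i, ContinuousOn (d i) (ball 0 3))
    (h' : ∀ i, ContinuousOn (d' i) (ball 0 3)) :
    S.int (fun i z => d i z + d' i z) = S.int d + S.int d' := by
  rw [Sheets.int, Sheets.int, Sheets.int, ← Finset.sum_add_distrib]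
  exact Finset.sum_congr rfl fun i _ => integral_add (integrableOn_P (h i) i) (integrableOn_P (h' i) i)

theorem int_congr {d d' : Fin S.N → ℂ → ℂ} (h : ∀ i, ∀ z ∈ ball (0 : ℂ) 3, d i z = d' i z) :
    S.int d = S.int d' := by
  refine Finset.sum_congr rfl fun i _ => ?_
  exact setIntegral_congr_fun measurableSet_P fun z hz => h i z (P_sub hz)

/-- the function with the pole -/
def sing (S : Sheets E Γ) (i : Fin S.N) (z₀ : ℂ) (e : E) : ℂ :=
  ext S i (fun w _ => chiC w / (w - z₀)) e

theorem sing_smul (γ : Γ) (e : E) : sing S i z₀ (γ • e) = sing S i z₀ e := by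
  rw [sing, sing]
  by_cases h : In S i e
  · obtain ⟨h1, h2, h3⟩ := zeta_smul h γ
    rw [ext, if_pos h1, ext, if_pos h, h2]
  · rw [ext, if_neg (fun h' => h ((In_smul γ).1 h')), ext, if_neg h]

/-- `∂̄` of the singular function, off the pole -/
theorem sing_dbar {z : ℂ} (hz : z ∈ ball (0 : ℂ) 3)
    (hp : ∀ γ : Γ, γ • S.σ i z₀ ≠ S.σ j z) :
    DifferentiableAt ℝ (fun u => sing S i z₀ (S.σ j u)) z ∧
      dbar (fun u => sing S i z₀ (S.σ j u)) z = frm S i z₀ j z := by
  have h0 := ext_local (S := S) (i := i) (j := j) (Φ := fun w (_ : Γ) => chiC w / (w - z₀))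
    (fun w γ hw => by rw [chiC_zero hw, zero_div]) hz 1
  simp only [one_smul] at h0
  by_cases hU : z ∈ U S j i
  · have hne : τ S j i z - z₀ ≠ 0 := by
      intro h1
      refine hp (κ S j i z) ?_
      rw [← sub_eq_zero.1 h1]
      exact (tau_spec hU).2.symm
    have h1 : (fun u => sing S i z₀ (S.σ j u)) =ᶠ[𝓝 z] fun u =>
        chiC (τ S j i u) * (τ S j i u - z₀)⁻¹ := by
      filter_upwards [isOpen_U.mem_nhds hU] with u hu
      have h2 := (In_sigma (S := S) (i := i) (γ := 1) (U_sub hu)).2 hu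
      have h3 := zeta_sigma (S := S) (γ := 1) hu
      simp only [one_smul] at h2 h3
      rw [sing, ext, if_pos h2, h3.1, div_eq_mul_inv]
    have h2 : HasDerivAt (fun w : ℂ => (w - z₀)⁻¹) (-1 / (τ S j i z - z₀) ^ 2) (τ S j i z) := by
      have := ((hasDerivAt_id (τ S j i z)).sub_const z₀).inv hne
      exact this
    have h3 : DifferentiableAt ℝ (fun w : ℂ => (w - z₀)⁻¹) (τ S j i z) :=
      h2.differentiableAt.restrictScalars ℝ
    have h4 : DifferentiableAt ℝ (fun w => chiC w * (w - z₀)⁻¹) (τ S j i z) :=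
      (chiC_diff _).mul h3
    have h5 : dbar (fun w => chiC w * (w - z₀)⁻¹) (τ S j i z) = beta z₀ (τ S j i z) := by
      have h6 : HasFDerivAt (fun w => chiC w * (w - z₀)⁻¹) (chiC (τ S j i z) •
          fderiv ℝ (fun w : ℂ => (w - z₀)⁻¹) (τ S j i z) + (τ S j i z - z₀)⁻¹ •
            fderiv ℝ chiC (τ S j i z)) (τ S j i z) := (chiC_diff _).hasFDerivAt.mul h3.hasFDerivAt
      have h7 := dbar_hol h2.differentiableAt
      rw [dbar] at h7
      rw [dbar, h6.fderiv, beta, dbar]
      simp only [_root_.add_apply, _root_.smul_apply, smul_eq_mul]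
      rw [div_eq_mul_inv _ (τ S j i z - z₀)]
      linear_combination chiC (τ S j i z) * h7
    refine ⟨?_, ?_⟩
    · refine DifferentiableAt.congr_of_eventuallyEq ?_ h1
      exact h4.comp z ((analyticAt_tau hU).differentiableAt.restrictScalars ℝ)
    · rw [dbar_congr h1, dbar_comp (g := fun w => chiC w * (w - z₀)⁻¹)
        (analyticAt_tau hU).differentiableAt h4, h5, frm, if_pos hU]
  · rcases h0 with ⟨h, -⟩ | h
    · exact absurd h hU
    · have h1 : (fun u => sing S i z₀ (S.σ j u)) =ᶠ[𝓝 z] fun _ => 0 := h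
      refine ⟨(differentiableAt_const (0 : ℂ)).congr_of_eventuallyEq h1, ?_⟩
      rw [dbar_congr h1, dbar_hol (differentiableAt_const _), frm, if_neg hU]

theorem pole_open {z : ℂ} (hz₀ : ‖z₀‖ < 1) (hz : z ∈ ball (0 : ℂ) 3)
    (hp : ∀ γ : Γ, γ • S.σ i z₀ ≠ S.σ j z) :
    ∀ᶠ u in 𝓝 z, ∀ γ : Γ, γ • S.σ i z₀ ≠ S.σ j u := by
  have hz3 := Sheets.mem3 hz₀
  by_cases hU : z ∈ U S j i
  · have hne : τ S j i z ≠ z₀ := by
      intro h1
      refine hp (κ S j i z) ?_
      rw [← h1]
      exact (tau_spec hU).2.symm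
    have h1 := (analyticAt_tau hU).continuousAt.eventually_ne hne
    filter_upwards [h1, isOpen_U.mem_nhds hU] with u hu hUu γ h2
    exact hu (tau_unique (U_sub hUu) hz3 h2.symm).1
  · filter_upwards [far hz hU, isOpen_ball.mem_nhds hz] with u hu hb γ h2
    have h3 : u ∈ U S j i := mem_U hb hz3 h2.symm
    have h4 := hu h3
    rw [(tau_unique hb hz3 h2.symm).1] at h4
    linarith

end

/-- **C3** -/
theorem c3 (hC1 : C1Stmt) (hE1 : E1Stmt) (hE3 : E3Stmt) : C3Stmt := by
  intro E Γ _ _ _ _ _ _ S i z₀ hz₀ h0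
  obtain ⟨v, h, c, hv, hvi, H, hf⟩ := hC1 E Γ S _ (frm_form (S := S) (i := i) hz₀)
  have hvs : ∀ j, ContDiffOn ℝ ∞ (fun z => v (S.σ j z)) (ball 0 3) := fun j => by
    have h1 := hv j 1
    simpa only [one_smul] using h1
  have hvd : ∀ j, ∀ z ∈ ball (0 : ℂ) 3, DifferentiableAt ℝ (fun z => v (S.σ j z)) z :=
    fun j z hz => ((hvs j).contDiffAt (isOpen_ball.mem_nhds hz)).differentiableAt (by simp)
  -- `dh = 0`
  have hherm : S.herm h h = 0 := by
    have h1 := int_frm hz₀ H (h0 h c H)
    have h2 := hE3 E Γ S v h c hv hvi H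
    have hcd : ∀ j, ContinuousOn (deriv fun z => h (S.σ j z)) (ball 0 3) := fun j =>
      ((H.hol j).deriv isOpen_ball).continuousOn
    have h3 : S.int (fun j z => frm S i z₀ j z * deriv (fun z => h (S.σ j z)) z) =
        S.int (fun j z => dbar (fun z => v (S.σ j z)) z * deriv (fun z => h (S.σ j z)) z +
          deriv (fun z => h (S.σ j z)) z * conj (deriv (fun z => h (S.σ j z)) z)) := by
      refine int_congr fun j z hz => ?_
      rw [hf j z hz]
      ring
    rw [h1, int_add, h2, zero_add] at h3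
    · exact h3.symm
    · intro j
      exact (contDiffOn_dbar isOpen_ball (hvs j)).continuousOn.mul (hcd j)
    · intro j
      exact (hcd j).mul (Complex.continuous_conj.comp_continuousOn (hcd j))
  have hc0 := (hE1 E Γ S).pos H hherm
  have hconst := unique_of_re H (fun γ => by rw [hc0 γ]; rfl)
  have hdv : ∀ j, ∀ z ∈ ball (0 : ℂ) 3, dbar (fun z => v (S.σ j z)) z = frm S i z₀ j z := by
    intro j z hz
    have h1 : (fun z => h (S.σ j z)) = fun _ => h (S.σ j z) := funext fun u => hconst _ _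
    rw [hf j z hz, h1, deriv_const]
    simp
  refine ⟨fun e => sing S i z₀ e - v e, fun z => - v (S.σ i z), fun γ e => ?_, fun j z hz hp => ?_,
    ?_, ?_⟩
  · show sing S i z₀ (γ • e) - v (γ • e) = sing S i z₀ e - v e
    rw [sing_smul, hvi]
  · rw [Complex.analyticAt_iff_eventually_differentiableAt]
    filter_upwards [pole_open hz₀ hz hp, isOpen_ball.mem_nhds hz] with u hu hb
    obtain ⟨h1, h2⟩ := sing_dbar hb hu
    refine differentiableAt_of_dbar (h1.sub (hvd j u hb)) ?_
    rw [dbar_sub h1 (hvd j u hb), h2, hdv j u hb, sub_self]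
  · rw [Complex.analyticAt_iff_eventually_differentiableAt]
    have h1 : {w : ℂ | ‖w‖ < 1} ∈ 𝓝 z₀ := (isOpen_lt continuous_norm continuous_const).mem_nhds hz₀
    filter_upwards [h1] with u hu
    have hu1 : ‖u‖ < 1 := hu
    have hb := Sheets.mem3 hu1
    refine DifferentiableAt.neg ?_
    refine differentiableAt_of_dbar (hvd i u hb) ?_
    rw [hdv i u hb, frm_self hb, beta_zero' (by linarith)]
  · have h1 : {w : ℂ | ‖w‖ < 1} ∈ 𝓝 z₀ := (isOpen_lt continuous_norm continuous_const).mem_nhds hz₀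
    filter_upwards [mem_nhdsWithin_of_mem_nhds h1] with u hu
    have hu1 : ‖u‖ < 1 := hu
    have hb := Sheets.mem3 hu1
    obtain ⟨h2, h3, -⟩ := zeta_unique (S := S) (i := i) (γ := 1) hb (one_smul Γ (S.σ i u)).symm
    rw [sing, ext, if_pos h2, h3, chiC_one (by linarith), one_div]
    ring

end Vale.Agent.P281.H240
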