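import Vale.Agent.P281.H125.CoV

/-!
# P281, theorem T-D (helper240): coordinates on `E`, extension by zero, `∂̄`
-/

open Set Filter Metric MeasureTheory
open scoped Topology ContDiff ComplexConjugate

noncomputable section

namespace Vale.Agent.P281.H240

open Vale.Agent.P281.H64 Vale.Agent.P281.H125

section coord
variable {E Γ : Type} [TopologicalSpace E] [Group Γ] [MulAction Γ E] (S : Sheets E Γ)

/-- `e` lies in the sheet `i` (modulo `Γ`) -/
def In (i : Fin S.N) (e : E) : Prop := ∃ (z : ℂ) (γ : Γ), z ∈ ball (0 : ℂ) 3 ∧ e = γ • S.σ i z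

open Classical in
/-- the coordinate of `e` in the sheet `i` -/
def ζ (i : Fin S.N) (e : E) : ℂ := if h : In S i e then h.choose else 0

open Classical in
/-- the element of `Γ` -/
def gg (i : Fin S.N) (e : E) : Γ := if h : In S i e then h.choose_spec.choose else 1

variable {S} {i j : Fin S.N} {z w : ℂ} {γ : Γ} {e : E}

theorem zeta_spec (h : In S i e) : ζ S i e ∈ ball (0 : ℂ) 3 ∧ e = gg S i e • S.σ i (ζ S i e) := by
  have h1 : ζ S i e = h.choose := by simp only [ζ, h, dif_pos]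
  have h2 : gg S i e = h.choose_spec.choose := by simp only [gg, h, dif_pos]
  rw [h1, h2]
  exact h.choose_spec.choose_spec

theorem zeta_unique (hz : z ∈ ball (0 : ℂ) 3) (h : e = γ • S.σ i z) :
    In S i e ∧ ζ S i e = z ∧ gg S i e = γ := by
  have h0 : In S i e := ⟨z, γ, hz, h⟩
  have h1 := zeta_spec h0
  have h2 : (γ⁻¹ * gg S i e) • S.σ i (ζ S i e) = S.σ i z := by
    rw [mul_smul, ← h1.2, h, smul_smul, inv_mul_cancel, one_smul]
  obtain ⟨h3, h4⟩ := S.inj i _ h1.1 _ hz _ h2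
  exact ⟨h0, h4, (inv_mul_eq_one.1 h3).symm⟩

theorem zeta_smul (h : In S i e) (γ : Γ) :
    In S i (γ • e) ∧ ζ S i (γ • e) = ζ S i e ∧ gg S i (γ • e) = γ * gg S i e := by
  have h1 := zeta_spec h
  refine zeta_unique h1.1 ?_
  rw [mul_smul, ← h1.2]

theorem In_smul (γ : Γ) : In S i (γ • e) ↔ In S i e := by
  refine ⟨fun h => ?_, fun h => (zeta_smul h γ).1⟩
  have := (zeta_smul h γ⁻¹).1
  rwa [inv_smul_smul] at this

theorem In_sigma (hz : z ∈ ball (0 : ℂ) 3) : In S i (γ • S.σ j z) ↔ z ∈ U S j i := by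
  constructor
  · intro h
    obtain ⟨w, γ', hw, h'⟩ := (In_smul γ).1 h
    exact mem_U hz hw h'
  · intro h
    have h1 := tau_spec h
    refine ⟨_, γ * κ S j i z, h1.1, ?_⟩
    rw [mul_smul, ← h1.2]

theorem zeta_sigma (h : z ∈ U S j i) :
    ζ S i (γ • S.σ j z) = τ S j i z ∧ gg S i (γ • S.σ j z) = γ * κ S j i z := by
  have h1 := tau_spec h
  have h2 : γ • S.σ j z = (γ * κ S j i z) • S.σ i (τ S j i z) := by rw [mul_smul, ← h1.2]
  exact (zeta_unique h1.1 h2).2

open Classical in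
/-- Extension by zero of a function on the sheet `i` (modulo `Γ`). -/
def ext {F : Type*} [Zero F] (S : Sheets E Γ) (i : Fin S.N) (Φ : ℂ → Γ → F) (e : E) : F :=
  if In S i e then Φ (ζ S i e) (gg S i e) else 0

theorem continuousAt_sigma (j : Fin S.N) (hz : z ∈ ball (0 : ℂ) 3) : ContinuousAt (S.σ j) z :=
  (S.map_nhds j z hz).le

theorem continuousAt_smul_sigma [ContinuousConstSMul Γ E] (j : Fin S.N)
    (hz : z ∈ ball (0 : ℂ) 3) (γ : Γ) : ContinuousAt (fun u => γ • S.σ j u) z :=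
  (continuousAt_sigma j hz).const_smul γ

/-- local form of the extension by zero -/
theorem ext_local {F : Type*} [Zero F] {Φ : ℂ → Γ → F} (h0 : ∀ w γ, 2 < ‖w‖ → Φ w γ = 0)
    (hz : z ∈ ball (0 : ℂ) 3) (γ : Γ) :
    (z ∈ U S j i ∧ ∀ᶠ u in 𝓝 z, u ∈ U S j i ∧ ext S i Φ (γ • S.σ j u) =
      Φ (τ S j i u) (γ * κ S j i z)) ∨ ∀ᶠ u in 𝓝 z, ext S i Φ (γ • S.σ j u) = 0 := by
  by_cases h : z ∈ U S j i
  · left
    refine ⟨h, ?_⟩
    filter_upwards [isOpen_U.mem_nhds h, kappa_local h] with u hu hk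
    refine ⟨hu, ?_⟩
    rw [ext, if_pos ((In_sigma (U_sub hu)).2 hu), (zeta_sigma hu).1, (zeta_sigma hu).2, hk]
  · right
    have h1 := S.closed i 2 (by norm_num)
    have h2 : S.σ j z ∉ {e : E | ∃ (γ : Γ) (w : ℂ), ‖w‖ ≤ 2 ∧ γ • S.σ i w = e} := by
      rintro ⟨γ', w, hw, h'⟩
      exact h (mem_U hz (mem_ball_zero_iff.2 (by linarith)) h'.symm)
    have h3 := (continuousAt_sigma j hz).eventually (h1.isOpen_compl.mem_nhds h2)
    filter_upwards [h3, isOpen_ball.mem_nhds hz] with u hu hb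
    by_cases h4 : In S i (γ • S.σ j u)
    · rw [ext, if_pos h4]
      have h5 := (In_sigma hb).1 h4
      refine h0 _ _ ?_
      rw [(zeta_sigma h5).1]
      by_contra h6
      push Not at h6
      refine hu ⟨κ S j i u, τ S j i u, h6, ?_⟩
      exact (tau_spec h5).2.symm
    · rw [ext, if_neg h4]

theorem contDiffAt_tau (h : z ∈ U S i j) : ContDiffAt ℝ ∞ (τ S i j) z :=
  ((analyticAt_tau h).contDiffAt (n := ∞)).restrict_scalars ℝ

/-- smoothness of the extension by zero -/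
theorem ext_smooth {F : Type*} [NormedAddCommGroup F] [NormedSpace ℝ F] {Φ : ℂ → Γ → F}
    (h0 : ∀ w γ, 2 < ‖w‖ → Φ w γ = 0) (hs : ∀ γ, ContDiff ℝ ∞ (fun w => Φ w γ)) (j : Fin S.N)
    (γ : Γ) (hz : z ∈ ball (0 : ℂ) 3) :
    ContDiffAt ℝ ∞ (fun u => ext S i Φ (γ • S.σ j u)) z := by
  rcases ext_local (i := i) (j := j) h0 hz γ with ⟨h, h1⟩ | h1
  · have h2 : ContDiffAt ℝ ∞ (fun u => Φ (τ S j i u) (γ * κ S j i z)) z :=
      (hs (γ * κ S j i z)).contDiffAt.comp z (contDiffAt_tau h)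
    exact h2.congr_of_eventuallyEq (h1.mono fun u hu => hu.2)
  · exact contDiffAt_const.congr_of_eventuallyEq h1

end coord

/-! ### `∂̄` -/

theorem dbar_congr {u v : ℂ → ℂ} {z : ℂ} (h : u =ᶠ[𝓝 z] v) : dbar u z = dbar v z := by
  rw [dbar, dbar, h.fderiv_eq]

theorem dbar_add {u v : ℂ → ℂ} {z : ℂ} (hu : DifferentiableAt ℝ u z)
    (hv : DifferentiableAt ℝ v z) : dbar (fun z => u z + v z) z = dbar u z + dbar v z := by
  rw [dbar, dbar, dbar, fderiv_fun_add hu hv]
  simp only [_root_.add_apply]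
  ring

theorem dbar_sub {u v : ℂ → ℂ} {z : ℂ} (hu : DifferentiableAt ℝ u z)
    (hv : DifferentiableAt ℝ v z) : dbar (fun z => u z - v z) z = dbar u z - dbar v z := by
  rw [dbar, dbar, dbar, fderiv_fun_sub hu hv]
  simp only [_root_.sub_apply]
  ring

theorem dbar_add_const {u : ℂ → ℂ} {z : ℂ} (c : ℂ) : dbar (fun z => u z + c) z = dbar u z := by
  rw [dbar, dbar, fderiv_add_const]

/-- `∂̄` of a holomorphic function -/
theorem dbar_hol {u : ℂ → ℂ} {z : ℂ} (h : DifferentiableAt ℂ u z) : dbar u z = 0 := by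
  have h1 : HasFDerivAt u (mulR (deriv u z)) z := hasFDerivAt_mulR h.hasDerivAt
  rw [dbar, h1.fderiv, mulR_apply, mulR_apply]
  linear_combination (1 / 2 : ℂ) * deriv u z * Complex.I_mul_I

/-- `∂̄` of the conjugate of a holomorphic function -/
theorem dbar_conj_hol {u : ℂ → ℂ} {z : ℂ} (h : DifferentiableAt ℂ u z) :
    dbar (fun z => conj (u z)) z = conj (deriv u z) := by
  have h1 : HasFDerivAt u (mulR (deriv u z)) z := hasFDerivAt_mulR h.hasDerivAt
  have h2 : HasFDerivAt (fun z => conj (u z))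
      ((Complex.conjCLE : ℂ →L[ℝ] ℂ).comp (mulR (deriv u z))) z :=
    (Complex.conjCLE : ℂ →L[ℝ] ℂ).hasFDerivAt.comp z h1
  rw [dbar, h2.fderiv]
  simp only [ContinuousLinearMap.comp_apply, mulR_apply, ContinuousLinearEquiv.coe_coe,
    Complex.conjCLE_apply, map_mul, Complex.conj_I, map_one]
  linear_combination (-1 / 2 : ℂ) * conj (deriv u z) * Complex.I_mul_I

theorem real_lin (L : ℂ →L[ℝ] ℂ) (v : ℂ) : L v = v.re * L 1 + v.im * L Complex.I := by
  have : v = v.re • (1 : ℂ) + v.im • Complex.I := by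
    simp [Complex.re_add_im]
  conv_lhs => rw [this]
  rw [map_add, map_smul, map_smul]
  simp

/-- a differentiable function with `∂̄ u = 0` is complex differentiable -/
theorem differentiableAt_of_dbar {u : ℂ → ℂ} {z : ℂ} (h : DifferentiableAt ℝ u z)
    (h0 : dbar u z = 0) : DifferentiableAt ℂ u z := by
  rw [differentiableAt_iff_restrictScalars ℝ h]
  have h1 : fderiv ℝ u z Complex.I = Complex.I * fderiv ℝ u z 1 := by
    rw [dbar] at h0
    have h2 : fderiv ℝ u z 1 + Complex.I * fderiv ℝ u z Complex.I = 0 := by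
      linear_combination 2 * h0
    linear_combination (-Complex.I) * h2 + fderiv ℝ u z Complex.I * Complex.I_mul_I
  refine ⟨ContinuousLinearMap.toSpanSingleton ℂ (fderiv ℝ u z 1), ?_⟩
  ext v
  have h3 := real_lin (fderiv ℝ u z) v
  rw [h3, h1]
  simp only [ContinuousLinearMap.coe_restrictScalars', ContinuousLinearMap.toSpanSingleton_apply,
    smul_eq_mul]
  conv_lhs => rw [← Complex.re_add_im v]
  ring

/-- chain rule -/
theorem dbar_comp {g θ : ℂ → ℂ} {z : ℂ} (hθ : DifferentiableAt ℂ θ z)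
    (hg : DifferentiableAt ℝ g (θ z)) :
    dbar (fun u => g (θ u)) z = dbar g (θ z) * conj (deriv θ z) := by
  have h1 : HasFDerivAt θ (mulR (deriv θ z)) z := hasFDerivAt_mulR hθ.hasDerivAt
  have h2 : HasFDerivAt (fun u => g (θ u)) ((fderiv ℝ g (θ z)).comp (mulR (deriv θ z))) z :=
    hg.hasFDerivAt.comp z h1
  rw [dbar, h2.fderiv, dbar]
  simp only [ContinuousLinearMap.comp_apply, mulR_apply, one_mul]
  set c := deriv θ z
  set L := fderiv ℝ g (θ z)
  have h3 := real_lin L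
  rw [h3 c, h3 (Complex.I * c)]
  have h4 : conj c = c.re - c.im * Complex.I := by
    apply Complex.ext <;> simp
  rw [h4]
  simp only [Complex.mul_re, Complex.I_re, Complex.I_im, Complex.mul_im, zero_mul, one_mul,
    zero_sub, zero_add, Complex.ofReal_neg]
  linear_combination ((c.im : ℂ) * L Complex.I / 2) * Complex.I_mul_I

end Vale.Agent.P281.H240
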